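import Mathlib

/-!
Capacity for points under a near-1-wall element of `Sp_4` (form (4) of helper217's note):
two near-wall isometries of comparable size which contract the same vector `x` at the full rate
differ by a bounded element.  No Cartan decomposition is used.
-/

namespace Vale.Agent.P092.H789.Sp.CapP

open Matrix

variable {k : Type*} [NormedField k]

/-- the standard symplectic form matrix (literal of the group letters). -/
abbrev JJ : Matrix (Fin 4) (Fin 4) k := !![0,0,0,1; 0,0,1,0; 0,-1,0,0; -1,0,0,0]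

/-- the symplectic form. -/
def om (x y : Fin 4 → k) : k := x 0 * y 3 + x 1 * y 2 - x 2 * y 1 - x 3 * y 0

theorem om_eq (x y : Fin 4 → k) : om x y = x ⬝ᵥ ((JJ : Matrix (Fin 4) (Fin 4) k) *ᵥ y) := by
  simp [om, JJ, dotProduct, Matrix.mulVec, Fin.sum_univ_four]
  ring

theorem om_mul {g : Matrix (Fin 4) (Fin 4) k} (hg : gᵀ * JJ * g = JJ) (x y : Fin 4 → k) :
    om (g *ᵥ x) (g *ᵥ y) = om x y := by
  rw [om_eq, om_eq]
  calc (g *ᵥ x) ⬝ᵥ (JJ *ᵥ (g *ᵥ y)) = (x ᵥ* gᵀ) ⬝ᵥ (JJ *ᵥ (g *ᵥ y)) := by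
        rw [Matrix.vecMul_transpose]
    _ = x ⬝ᵥ (gᵀ *ᵥ (JJ *ᵥ (g *ᵥ y))) := (Matrix.dotProduct_mulVec _ _ _).symm
    _ = x ⬝ᵥ ((gᵀ * JJ * g) *ᵥ y) := by
        simp only [Matrix.mulVec_mulVec, Matrix.mul_assoc]
    _ = x ⬝ᵥ (JJ *ᵥ y) := by rw [hg]

theorem om_le (x y : Fin 4 → k) : ‖om x y‖ ≤ 4 * ‖x‖ * ‖y‖ := by
  have h : ∀ i j, ‖x i * y j‖ ≤ ‖x‖ * ‖y‖ := fun i j => by
    rw [norm_mul]
    exact mul_le_mul (norm_le_pi_norm x i) (norm_le_pi_norm y j) (norm_nonneg _) (norm_nonneg _)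
  unfold om
  calc ‖x 0 * y 3 + x 1 * y 2 - x 2 * y 1 - x 3 * y 0‖
      ≤ ‖x 0 * y 3 + x 1 * y 2 - x 2 * y 1‖ + ‖x 3 * y 0‖ := norm_sub_le _ _
    _ ≤ ‖x 0 * y 3 + x 1 * y 2‖ + ‖x 2 * y 1‖ + ‖x 3 * y 0‖ := by
        gcongr; exact norm_sub_le _ _
    _ ≤ ‖x 0 * y 3‖ + ‖x 1 * y 2‖ + ‖x 2 * y 1‖ + ‖x 3 * y 0‖ := by
        gcongr; exact norm_add_le _ _
    _ ≤ 4 * ‖x‖ * ‖y‖ := by
        have := h 0 3; have := h 1 2; have := h 2 1; have := h 3 0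
        nlinarith

/-- the basis vector. -/
def ee (j : Fin 4) : Fin 4 → k := Pi.single j 1

theorem norm_ee (j : Fin 4) : ‖(ee j : Fin 4 → k)‖ ≤ 1 := by
  refine (pi_norm_le_iff_of_nonneg zero_le_one).2 fun i => ?_
  unfold ee
  by_cases h : i = j
  · subst h; simp
  · simp [h]

theorem mulVec_ee (g : Matrix (Fin 4) (Fin 4) k) (j i : Fin 4) : (g *ᵥ ee j) i = g i j := by
  simp [ee]

theorem norm_om_ee (j : Fin 4) (z : Fin 4 → k) : ‖om (ee j) z‖ = ‖z j.rev‖ := by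
  fin_cases j <;> simp [om, ee, Fin.rev]

theorem om_smul_left (c : k) (x y : Fin 4 → k) : om (c • x) y = c * om x y := by
  simp [om]; ring

theorem om_smul_right (c : k) (x y : Fin 4 → k) : om x (c • y) = c * om x y := by
  simp [om]; ring

theorem om_add_left (x x' y : Fin 4 → k) : om (x + x') y = om x y + om x' y := by
  simp [om]; ring

theorem om_add_right (x y y' : Fin 4 → k) : om x (y + y') = om x y + om x y' := by
  simp [om]; ring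

theorem om_sub_right (x y y' : Fin 4 → k) : om x (y - y') = om x y - om x y' := by
  simp [om]; ring

theorem om_self (x : Fin 4 → k) : om x x = 0 := by
  simp [om]; ring

theorem om_swap (x y : Fin 4 → k) : om y x = - om x y := by
  simp [om]; ring

theorem mulVec_le {g : Matrix (Fin 4) (Fin 4) k} {M : ℝ} (hM : 0 ≤ M) (up : ∀ i j, ‖g i j‖ ≤ M)
    (z : Fin 4 → k) : ‖g *ᵥ z‖ ≤ 4 * M * ‖z‖ := by
  refine (pi_norm_le_iff_of_nonneg (by positivity)).2 fun i => ?_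
  have h : ∀ m, ‖g i m * z m‖ ≤ M * ‖z‖ := fun m => by
    rw [norm_mul]
    exact mul_le_mul (up i m) (norm_le_pi_norm z m) (norm_nonneg _) hM
  calc ‖(g *ᵥ z) i‖ = ‖∑ m, g i m * z m‖ := rfl
    _ ≤ ∑ m, ‖g i m * z m‖ := norm_sum_le _ _
    _ ≤ ∑ _m : Fin 4, M * ‖z‖ := Finset.sum_le_sum fun m _ => h m
    _ = 4 * M * ‖z‖ := by simp; ring

/-- near-1-wall elements of size `M` (all 2x2 minors are `O(M)`). -/
structure NW (C M : ℝ) (g : Matrix (Fin 4) (Fin 4) k) : Prop where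
  sp : gᵀ * JJ * g = JJ
  up : ∀ i j, ‖g i j‖ ≤ M
  lo : ∃ i j, M ≤ C * ‖g i j‖
  mn : ∀ i i' j j', ‖g i j * g i' j' - g i j' * g i' j‖ ≤ C * M

section
variable {C M : ℝ} {g : Matrix (Fin 4) (Fin 4) k}

/-- `‖z‖ ≤ 4 M ‖g z‖` (the inverse has the same entries up to sign). -/
theorem inv_le (hM : 0 ≤ M) (sp : gᵀ * JJ * g = JJ) (up : ∀ i j, ‖g i j‖ ≤ M)
    (z : Fin 4 → k) : ‖z‖ ≤ 4 * M * ‖g *ᵥ z‖ := by
  refine (pi_norm_le_iff_of_nonneg (by positivity)).2 fun i => ?_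
  have h1 := norm_om_ee i.rev z
  rw [Fin.rev_rev] at h1
  rw [← h1, ← om_mul sp]
  refine (om_le _ _).trans ?_
  have : ‖g *ᵥ ee i.rev‖ ≤ M := by
    refine (pi_norm_le_iff_of_nonneg hM).2 fun l => ?_
    rw [mulVec_ee]; exact up _ _
  gcongr

/-- the column remainder. -/
theorem col_rem (hC : 1 ≤ C) (hM : 0 < M) (h : NW C M g) {i j : Fin 4}
    (hp : M ≤ C * ‖g i j‖) (m : Fin 4) :
    ‖g *ᵥ ee m - (g i m / g i j) • (g *ᵥ ee j)‖ ≤ C ^ 2 := by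
  have hC0 : 0 < C := lt_of_lt_of_le one_pos hC
  have hg0 : 0 < ‖g i j‖ := by
    by_contra hn
    have : ‖g i j‖ = 0 := le_antisymm (not_lt.1 hn) (norm_nonneg _)
    rw [this, mul_zero] at hp
    linarith
  have hg1 : g i j ≠ 0 := norm_pos_iff.1 hg0
  refine (pi_norm_le_iff_of_nonneg (by positivity)).2 fun l => ?_
  have e : (g *ᵥ ee m - (g i m / g i j) • (g *ᵥ ee j)) l
      = (g i j * g l m - g i m * g l j) / g i j := by
    rw [Pi.sub_apply, Pi.smul_apply, mulVec_ee, mulVec_ee, smul_eq_mul]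
    field_simp
  rw [e, norm_div, div_le_iff₀ hg0]
  refine (h.mn i l j m).trans ?_
  calc C * M ≤ C * (C * ‖g i j‖) := by gcongr
    _ = C ^ 2 * ‖g i j‖ := by ring

theorem ratio_le (hM : 0 < M) (h : NW C M g) {i j : Fin 4}
    (hp : M ≤ C * ‖g i j‖) (m : Fin 4) : ‖g i m / g i j‖ ≤ C := by
  have hg0 : 0 < ‖g i j‖ := by
    by_contra hn
    have : ‖g i j‖ = 0 := le_antisymm (not_lt.1 hn) (norm_nonneg _)
    rw [this, mul_zero] at hp
    linarith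
  rw [norm_div, div_le_iff₀ hg0]
  exact (h.up i m).trans hp

theorem ratio_le' (hM : 0 < M) (h : NW C M g) {i j : Fin 4}
    (hp : M ≤ C * ‖g i j‖) (m : Fin 4) : ‖g m j / g i j‖ ≤ C := by
  have hg0 : 0 < ‖g i j‖ := by
    by_contra hn
    have : ‖g i j‖ = 0 := le_antisymm (not_lt.1 hn) (norm_nonneg _)
    rw [this, mul_zero] at hp
    linarith
  rw [norm_div, div_le_iff₀ hg0]
  exact (h.up m j).trans hp

/-- `‖z‖` is bounded by the pivot coordinate and `‖g z‖`. -/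
theorem piv (hC : 1 ≤ C) (hM : 0 < M) (h : NW C M g) {i j : Fin 4}
    (hp : M ≤ C * ‖g i j‖) (z : Fin 4 → k) :
    ‖z‖ ≤ C * ‖z j.rev‖ + 4 * C ^ 2 * ‖g *ᵥ z‖ := by
  have hC0 : 0 < C := lt_of_lt_of_le one_pos hC
  refine (pi_norm_le_iff_of_nonneg (by positivity)).2 fun l => ?_
  have h1 := norm_om_ee l.rev z
  rw [Fin.rev_rev] at h1
  rw [← h1, ← om_mul h.sp]
  have e : g *ᵥ ee l.rev = (g i l.rev / g i j) • (g *ᵥ ee j)
      + (g *ᵥ ee l.rev - (g i l.rev / g i j) • (g *ᵥ ee j)) := by abel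
  rw [e, om_add_left, om_smul_left, om_mul h.sp]
  refine (norm_add_le _ _).trans ?_
  refine add_le_add ?_ ?_
  · rw [norm_mul, norm_om_ee]
    exact mul_le_mul_of_nonneg_right (ratio_le hM h hp _) (norm_nonneg _)
  · refine (om_le _ _).trans ?_
    have := col_rem hC hM h hp l.rev
    gcongr

/-- row version: `‖g z‖` is bounded by the pivot row and `‖z‖`. -/
theorem row (hC : 1 ≤ C) (hM : 0 < M) (h : NW C M g) {i j : Fin 4}
    (hp : M ≤ C * ‖g i j‖) (z : Fin 4 → k) :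
    ‖g *ᵥ z‖ ≤ C * ‖(g *ᵥ z) i‖ + 4 * C ^ 2 * ‖z‖ := by
  have hC0 : 0 < C := lt_of_lt_of_le one_pos hC
  have hg0 : 0 < ‖g i j‖ := by
    by_contra hn
    have : ‖g i j‖ = 0 := le_antisymm (not_lt.1 hn) (norm_nonneg _)
    rw [this, mul_zero] at hp
    linarith
  have hg1 : g i j ≠ 0 := norm_pos_iff.1 hg0
  refine (pi_norm_le_iff_of_nonneg (by positivity)).2 fun l => ?_
  have e : (g *ᵥ z) l = (g l j / g i j) * (g *ᵥ z) i
      + ∑ m, (g i j * g l m - g i m * g l j) / g i j * z m := by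
    simp only [Matrix.mulVec, dotProduct, Fin.sum_univ_four]
    field_simp
    ring
  rw [e]
  refine (norm_add_le _ _).trans (add_le_add ?_ ?_)
  · rw [norm_mul]
    exact mul_le_mul_of_nonneg_right (ratio_le' hM h hp _) (norm_nonneg _)
  · refine (norm_sum_le _ _).trans ?_
    have : ∀ m ∈ (Finset.univ : Finset (Fin 4)),
        ‖(g i j * g l m - g i m * g l j) / g i j * z m‖ ≤ C ^ 2 * ‖z‖ := fun m _ => by
      rw [norm_mul, norm_div]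
      refine mul_le_mul ?_ (norm_le_pi_norm z m) (norm_nonneg _) (by positivity)
      rw [div_le_iff₀ hg0]
      refine (h.mn i l j m).trans ?_
      calc C * M ≤ C * (C * ‖g i j‖) := by gcongr
        _ = C ^ 2 * ‖g i j‖ := by ring
    refine (Finset.sum_le_sum this).trans ?_
    simp
    linarith

/-- the pivot coordinate of a contracted vector is big. -/
theorem big (hC : 1 ≤ C) (hM8 : 8 * C ^ 3 ≤ M) (h : NW C M g) {i j : Fin 4}
    (hp : M ≤ C * ‖g i j‖) {x : Fin 4 → k} (hx : M * ‖g *ᵥ x‖ ≤ C * ‖x‖) :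
    ‖x‖ ≤ 2 * C * ‖x j.rev‖ := by
  have hC0 : 0 < C := lt_of_lt_of_le one_pos hC
  have hM : 0 < M := lt_of_lt_of_le (by positivity) hM8
  have h1 := piv hC hM h hp x
  have h2 : 4 * C ^ 2 * ‖g *ᵥ x‖ ≤ ‖x‖ / 2 := by
    have h3 : 8 * C ^ 3 * ‖g *ᵥ x‖ ≤ C * ‖x‖ :=
      (mul_le_mul_of_nonneg_right hM8 (norm_nonneg _)).trans hx
    have h4 : C * (8 * C ^ 2 * ‖g *ᵥ x‖) ≤ C * ‖x‖ := by
      calc C * (8 * C ^ 2 * ‖g *ᵥ x‖) = 8 * C ^ 3 * ‖g *ᵥ x‖ := by ring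
        _ ≤ _ := h3
    have h5 := le_of_mul_le_mul_left h4 hC0
    linarith
  linarith

/-- vectors orthogonal to a contracted vector are not expanded. -/
theorem perp (hC : 1 ≤ C) (hM : 0 < M) (h : NW C M g) {x : Fin 4 → k} (hx0 : x ≠ 0)
    (hx : M * ‖g *ᵥ x‖ ≤ C * ‖x‖) {z : Fin 4 → k} (hz : om x z = 0) :
    ‖g *ᵥ z‖ ≤ 36 * C ^ 5 * ‖z‖ := by
  have hC0 : 0 < C := lt_of_lt_of_le one_pos hC
  obtain ⟨i, j, hp⟩ := h.lo
  by_cases hM8 : 8 * C ^ 3 ≤ M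
  · have hb := big hC hM8 h hp hx
    have hx1 : 0 < ‖x‖ := norm_pos_iff.2 hx0
    have hxj : 0 < ‖x j.rev‖ := by
      by_contra hn
      have : ‖x j.rev‖ = 0 := le_antisymm (not_lt.1 hn) (norm_nonneg _)
      rw [this, mul_zero] at hb
      linarith
    have hxj1 : x j.rev ≠ 0 := norm_pos_iff.1 hxj
    -- (g z)_i · om (ee j) x  is small
    set s : k := om (ee j) x with hs
    have hsn : ‖s‖ = ‖x j.rev‖ := norm_om_ee j x
    have hs0 : s ≠ 0 := norm_pos_iff.1 (hsn ▸ hxj)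
    have hg0 : 0 < ‖g i j‖ := by
      by_contra hn
      have : ‖g i j‖ = 0 := le_antisymm (not_lt.1 hn) (norm_nonneg _)
      rw [this, mul_zero] at hp
      linarith
    have hg1 : g i j ≠ 0 := norm_pos_iff.1 hg0
    -- for every m : om (ee m) x = (g i m / g i j) s + om (t m) (g x)
    have key : ∀ m, om (ee m) x = (g i m / g i j) * s
        + om (g *ᵥ ee m - (g i m / g i j) • (g *ᵥ ee j)) (g *ᵥ x) := fun m => by
      have e : g *ᵥ ee m = (g i m / g i j) • (g *ᵥ ee j)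
        + (g *ᵥ ee m - (g i m / g i j) • (g *ᵥ ee j)) := by abel
      calc om (ee m) x = om (g *ᵥ ee m) (g *ᵥ x) := (om_mul h.sp _ _).symm
        _ = om ((g i m / g i j) • (g *ᵥ ee j)
            + (g *ᵥ ee m - (g i m / g i j) • (g *ᵥ ee j))) (g *ᵥ x) := by rw [← e]
        _ = _ := by rw [om_add_left, om_smul_left, om_mul h.sp]
    have hz2 : ∑ m, om (ee m) x * z m = 0 := by
      have : ∑ m, om (ee m) x * z m = - om x z := by
        simp [Fin.sum_univ_four, om, ee]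
        ring
      rw [this, hz, neg_zero]
    have e2 : (g *ᵥ z) i * s = - ∑ m, g i j *
        (om (g *ᵥ ee m - (g i m / g i j) • (g *ᵥ ee j)) (g *ᵥ x) * z m) := by
      have e3 : ∑ m, g i j * (om (ee m) x * z m) = 0 := by
        rw [← Finset.mul_sum, hz2, mul_zero]
      have e4 : ∀ m, g i j * (om (ee m) x * z m) = g i m * z m * s + g i j *
        (om (g *ᵥ ee m - (g i m / g i j) • (g *ᵥ ee j)) (g *ᵥ x) * z m) := fun m => by
        rw [key m]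
        field_simp
      rw [Finset.sum_congr rfl fun m _ => e4 m, Finset.sum_add_distrib] at e3
      have e5 : (g *ᵥ z) i * s = ∑ m, g i m * z m * s := by
        rw [← Finset.sum_mul]; rfl
      rw [e5]
      exact eq_neg_of_add_eq_zero_left e3
    have b1 : ∀ m ∈ (Finset.univ : Finset (Fin 4)), ‖g i j *
        (om (g *ᵥ ee m - (g i m / g i j) • (g *ᵥ ee j)) (g *ᵥ x) * z m)‖
        ≤ 4 * C ^ 3 * ‖x‖ * ‖z‖ := fun m _ => by
      rw [norm_mul, norm_mul]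
      have c1 := om_le (g *ᵥ ee m - (g i m / g i j) • (g *ᵥ ee j)) (g *ᵥ x)
      have c2 := col_rem hC hM h hp m
      have c3 : ‖om (g *ᵥ ee m - (g i m / g i j) • (g *ᵥ ee j)) (g *ᵥ x)‖
          ≤ 4 * C ^ 2 * ‖g *ᵥ x‖ := c1.trans (by gcongr)
      calc ‖g i j‖ * (‖om (g *ᵥ ee m - (g i m / g i j) • (g *ᵥ ee j)) (g *ᵥ x)‖ * ‖z m‖)
          ≤ M * ((4 * C ^ 2 * ‖g *ᵥ x‖) * ‖z‖) := by
            refine mul_le_mul (h.up i j) ?_ (by positivity) hM.le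
            exact mul_le_mul c3 (norm_le_pi_norm z m) (norm_nonneg _) (by positivity)
        _ = 4 * C ^ 2 * (M * ‖g *ᵥ x‖) * ‖z‖ := by ring
        _ ≤ 4 * C ^ 2 * (C * ‖x‖) * ‖z‖ := by gcongr
        _ = 4 * C ^ 3 * ‖x‖ * ‖z‖ := by ring
    have b2 : ‖(g *ᵥ z) i‖ * ‖s‖ ≤ 16 * C ^ 3 * ‖x‖ * ‖z‖ := by
      rw [← norm_mul, e2, norm_neg]
      refine (norm_sum_le _ _).trans ((Finset.sum_le_sum b1).trans ?_)
      simp
      linarith
    have b3 : ‖(g *ᵥ z) i‖ ≤ 32 * C ^ 4 * ‖z‖ := by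
      rw [hsn] at b2
      have b4 : ‖(g *ᵥ z) i‖ * ‖x j.rev‖ ≤ 32 * C ^ 4 * ‖z‖ * ‖x j.rev‖ := by
        calc ‖(g *ᵥ z) i‖ * ‖x j.rev‖ ≤ 16 * C ^ 3 * ‖x‖ * ‖z‖ := b2
          _ ≤ 16 * C ^ 3 * (2 * C * ‖x j.rev‖) * ‖z‖ := by gcongr
          _ = 32 * C ^ 4 * ‖z‖ * ‖x j.rev‖ := by ring
      exact le_of_mul_le_mul_right b4 hxj
    calc ‖g *ᵥ z‖ ≤ C * ‖(g *ᵥ z) i‖ + 4 * C ^ 2 * ‖z‖ := row hC hM h hp z
      _ ≤ C * (32 * C ^ 4 * ‖z‖) + 4 * C ^ 5 * ‖z‖ := by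
          have : C ^ 2 ≤ C ^ 5 := pow_le_pow_right₀ hC (by norm_num)
          gcongr
      _ = 36 * C ^ 5 * ‖z‖ := by ring
  · have hM9 := (not_le.1 hM8).le
    calc ‖g *ᵥ z‖ ≤ 4 * M * ‖z‖ := mulVec_le hM.le h.up z
      _ ≤ 4 * (8 * C ^ 3) * ‖z‖ := by gcongr
      _ = 32 * C ^ 3 * ‖z‖ := by ring
      _ ≤ 36 * C ^ 5 * ‖z‖ := by
          have : C ^ 3 ≤ C ^ 5 := pow_le_pow_right₀ hC (by norm_num)
          have h0 : 0 ≤ C ^ 3 := by positivity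
          have : 32 * C ^ 3 ≤ 36 * C ^ 5 := by linarith
          gcongr

end

/-- **capacity of points**: `h` is bounded relative to `g`. -/
theorem cap_vec {C M N : ℝ} {g h : Matrix (Fin 4) (Fin 4) k} (hC : 1 ≤ C) (hM : 0 < M)
    (hN : 0 < N) (hg : NW C M g) (hh : NW C N h) (hMN : M ≤ C * N) (hNM : N ≤ C * M)
    {x : Fin 4 → k} (hx0 : x ≠ 0) (xg : M * ‖g *ᵥ x‖ ≤ C * ‖x‖) (xh : N * ‖h *ᵥ x‖ ≤ C * ‖x‖)
    (z : Fin 4 → k) : ‖h *ᵥ z‖ ≤ 2464 * C ^ 9 * ‖g *ᵥ z‖ := by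
  have hC0 : 0 < C := lt_of_lt_of_le one_pos hC
  obtain ⟨i, j, hp⟩ := hg.lo
  by_cases hM8 : 8 * C ^ 3 ≤ M
  · have hb := big hC hM8 hg hp xg
    have hx1 : 0 < ‖x‖ := norm_pos_iff.2 hx0
    have hxj : 0 < ‖x j.rev‖ := by
      by_contra hn
      have : ‖x j.rev‖ = 0 := le_antisymm (not_lt.1 hn) (norm_nonneg _)
      rw [this, mul_zero] at hb
      linarith
    set s : k := om (ee j) x with hs
    have hsn : ‖s‖ = ‖x j.rev‖ := norm_om_ee j x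
    have hs0 : s ≠ 0 := norm_pos_iff.1 (hsn ▸ hxj)
    set b : k := om (ee j) z / s with hbd
    set a : k := - (om x z / s) with had
    set z₀ : Fin 4 → k := z - (a • ee j + b • x) with hz0
    have hze : z = a • ee j + b • x + z₀ := by rw [hz0]; abel
    -- orthogonality of the remainder
    have o1 : om x z₀ = 0 := by
      rw [hz0, om_sub_right, om_add_right, om_smul_right, om_smul_right, om_self, om_swap (ee j) x,
        ← hs, had]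
      field_simp
      ring
    have o2 : om (ee j) z₀ = 0 := by
      rw [hz0, om_sub_right, om_add_right, om_smul_right, om_smul_right, om_self, ← hs, hbd]
      field_simp
      ring
    set n := ‖g *ᵥ z‖ with hn
    have hn0 : 0 ≤ n := norm_nonneg _
    have ge : ‖g *ᵥ ee j‖ ≤ M := by
      refine (pi_norm_le_iff_of_nonneg hM.le).2 fun l => ?_
      rw [mulVec_ee]; exact hg.up _ _
    have he : ‖h *ᵥ ee j‖ ≤ N := by
      refine (pi_norm_le_iff_of_nonneg hN.le).2 fun l => ?_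
      rw [mulVec_ee]; exact hh.up _ _
    -- coefficient bounds
    have hbn : ‖b‖ * ‖x‖ ≤ 8 * C * M * n := by
      have c1 : ‖om (ee j) z‖ ≤ 4 * M * n := by
        rw [← om_mul hg.sp]
        exact (om_le _ _).trans (by gcongr)
      rw [hbd, norm_div, hsn, div_mul_eq_mul_div, div_le_iff₀ hxj]
      calc ‖om (ee j) z‖ * ‖x‖ ≤ (4 * M * n) * (2 * C * ‖x j.rev‖) := by gcongr
        _ = 8 * C * M * n * ‖x j.rev‖ := by ring
    have han : ‖a‖ * M ≤ 8 * C ^ 2 * n := by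
      have c1 : ‖om x z‖ ≤ 4 * ‖g *ᵥ x‖ * n := by
        rw [← om_mul hg.sp]
        exact om_le _ _
      rw [had, norm_neg, norm_div, hsn, div_mul_eq_mul_div, div_le_iff₀ hxj]
      calc ‖om x z‖ * M ≤ (4 * ‖g *ᵥ x‖ * n) * M := by gcongr
        _ = 4 * (M * ‖g *ᵥ x‖) * n := by ring
        _ ≤ 4 * (C * ‖x‖) * n := by gcongr
        _ ≤ 4 * (C * (2 * C * ‖x j.rev‖)) * n := by gcongr
        _ = 8 * C ^ 2 * n * ‖x j.rev‖ := by ring
    -- the remainder under g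
    have r1 : ‖g *ᵥ z₀‖ ≤ 17 * C ^ 2 * n := by
      have e : g *ᵥ z₀ = g *ᵥ z - (a • (g *ᵥ ee j) + b • (g *ᵥ x)) := by
        rw [hz0, Matrix.mulVec_sub, Matrix.mulVec_add, Matrix.mulVec_smul, Matrix.mulVec_smul]
      rw [e]
      have c1 : ‖a • (g *ᵥ ee j)‖ ≤ 8 * C ^ 2 * n := by
        rw [norm_smul]
        exact (by gcongr : ‖a‖ * ‖g *ᵥ ee j‖ ≤ ‖a‖ * M).trans han
      have c2 : ‖b • (g *ᵥ x)‖ ≤ 8 * C ^ 2 * n := by
        rw [norm_smul]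
        have c3 : M * (‖b‖ * ‖g *ᵥ x‖) ≤ M * (8 * C ^ 2 * n) := by
          calc M * (‖b‖ * ‖g *ᵥ x‖) = ‖b‖ * (M * ‖g *ᵥ x‖) := by ring
            _ ≤ ‖b‖ * (C * ‖x‖) := by gcongr
            _ = C * (‖b‖ * ‖x‖) := by ring
            _ ≤ C * (8 * C * M * n) := by gcongr
            _ = M * (8 * C ^ 2 * n) := by ring
        exact le_of_mul_le_mul_left c3 hM
      have c4 : n ≤ C ^ 2 * n := by
        have : 1 ≤ C ^ 2 := one_le_pow₀ hC
        nlinarith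
      calc ‖g *ᵥ z - (a • (g *ᵥ ee j) + b • (g *ᵥ x))‖
          ≤ n + ‖a • (g *ᵥ ee j) + b • (g *ᵥ x)‖ := norm_sub_le _ _
        _ ≤ n + (‖a • (g *ᵥ ee j)‖ + ‖b • (g *ᵥ x)‖) := by gcongr; exact norm_add_le _ _
        _ ≤ 17 * C ^ 2 * n := by linarith
    have r2 : ‖z₀‖ ≤ 68 * C ^ 4 * n := by
      have c1 := piv hC hM hg hp z₀
      have c2 : ‖z₀ j.rev‖ = 0 := by rw [← norm_om_ee, o2, norm_zero]
      rw [c2, mul_zero, zero_add] at c1
      calc ‖z₀‖ ≤ 4 * C ^ 2 * ‖g *ᵥ z₀‖ := c1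
        _ ≤ 4 * C ^ 2 * (17 * C ^ 2 * n) := by gcongr
        _ = 68 * C ^ 4 * n := by ring
    have r3 : ‖h *ᵥ z₀‖ ≤ 2448 * C ^ 9 * n := by
      calc ‖h *ᵥ z₀‖ ≤ 36 * C ^ 5 * ‖z₀‖ := perp hC hN hh hx0 xh o1
        _ ≤ 36 * C ^ 5 * (68 * C ^ 4 * n) := by gcongr
        _ = 2448 * C ^ 9 * n := by ring
    have r4 : ‖a • (h *ᵥ ee j)‖ ≤ 8 * C ^ 9 * n := by
      rw [norm_smul]
      calc ‖a‖ * ‖h *ᵥ ee j‖ ≤ ‖a‖ * (C * M) := by
            gcongr; exact he.trans hNM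
        _ = C * (‖a‖ * M) := by ring
        _ ≤ C * (8 * C ^ 2 * n) := by gcongr
        _ = 8 * C ^ 3 * n := by ring
        _ ≤ 8 * C ^ 9 * n := by
            have : C ^ 3 ≤ C ^ 9 := pow_le_pow_right₀ hC (by norm_num)
            gcongr
    have r5 : ‖b • (h *ᵥ x)‖ ≤ 8 * C ^ 9 * n := by
      rw [norm_smul]
      have c3 : N * (‖b‖ * ‖h *ᵥ x‖) ≤ N * (8 * C ^ 9 * n) := by
        calc N * (‖b‖ * ‖h *ᵥ x‖) = ‖b‖ * (N * ‖h *ᵥ x‖) := by ring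
          _ ≤ ‖b‖ * (C * ‖x‖) := by gcongr
          _ = C * (‖b‖ * ‖x‖) := by ring
          _ ≤ C * (8 * C * M * n) := by gcongr
          _ ≤ C * (8 * C * (C * N) * n) := by gcongr
          _ = N * (8 * C ^ 3 * n) := by ring
          _ ≤ N * (8 * C ^ 9 * n) := by
            have : C ^ 3 ≤ C ^ 9 := pow_le_pow_right₀ hC (by norm_num)
            gcongr
      exact le_of_mul_le_mul_left c3 hN
    have e : h *ᵥ z = a • (h *ᵥ ee j) + b • (h *ᵥ x) + h *ᵥ z₀ := by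
      conv_lhs => rw [hze]
      rw [Matrix.mulVec_add, Matrix.mulVec_add, Matrix.mulVec_smul, Matrix.mulVec_smul]
    rw [e]
    calc ‖a • (h *ᵥ ee j) + b • (h *ᵥ x) + h *ᵥ z₀‖
        ≤ ‖a • (h *ᵥ ee j) + b • (h *ᵥ x)‖ + ‖h *ᵥ z₀‖ := norm_add_le _ _
      _ ≤ ‖a • (h *ᵥ ee j)‖ + ‖b • (h *ᵥ x)‖ + ‖h *ᵥ z₀‖ := by gcongr; exact norm_add_le _ _
      _ ≤ 2464 * C ^ 9 * n := by linarith
  · have hM9 := (not_le.1 hM8).le
    have h1 : ‖z‖ ≤ 4 * M * ‖g *ᵥ z‖ := inv_le hM.le hg.sp hg.up z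
    calc ‖h *ᵥ z‖ ≤ 4 * N * ‖z‖ := mulVec_le hN.le hh.up z
      _ ≤ 4 * (C * (8 * C ^ 3)) * (4 * (8 * C ^ 3) * ‖g *ᵥ z‖) := by
          have : N ≤ C * (8 * C ^ 3) := hNM.trans (by gcongr)
          have h2 : ‖z‖ ≤ 4 * (8 * C ^ 3) * ‖g *ᵥ z‖ := h1.trans (by gcongr)
          gcongr
      _ = 1024 * C ^ 7 * ‖g *ᵥ z‖ := by ring
      _ ≤ 2464 * C ^ 9 * ‖g *ᵥ z‖ := by
          have : C ^ 7 ≤ C ^ 9 := pow_le_pow_right₀ hC (by norm_num)
          have h0 : 0 ≤ C ^ 7 := by positivity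
          have : 1024 * C ^ 7 ≤ 2464 * C ^ 9 := by linarith
          gcongr

/-- **capacity of points**, as a bound of the entries of `h g⁻¹`. -/
theorem cap_pt {C M N : ℝ} {g h : Matrix (Fin 4) (Fin 4) k} (hC : 1 ≤ C) (hM : 0 < M)
    (hN : 0 < N) (hg : NW C M g) (hh : NW C N h) (hMN : M ≤ C * N) (hNM : N ≤ C * M)
    {x : Fin 4 → k} (hx0 : x ≠ 0) (xg : M * ‖g *ᵥ x‖ ≤ C * ‖x‖) (xh : N * ‖h *ᵥ x‖ ≤ C * ‖x‖)
    {g' : Matrix (Fin 4) (Fin 4) k} (gg : g * g' = 1) (i j : Fin 4) :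
    ‖(h * g') i j‖ ≤ 2464 * C ^ 9 := by
  have h1 := cap_vec hC hM hN hg hh hMN hNM hx0 xg xh (g' *ᵥ ee j)
  rw [Matrix.mulVec_mulVec, Matrix.mulVec_mulVec, gg, Matrix.one_mulVec] at h1
  calc ‖(h * g') i j‖ = ‖((h * g') *ᵥ ee j) i‖ := by rw [mulVec_ee]
    _ ≤ ‖(h * g') *ᵥ ee j‖ := norm_le_pi_norm _ i
    _ ≤ 2464 * C ^ 9 * ‖(ee j : Fin 4 → k)‖ := h1
    _ ≤ 2464 * C ^ 9 * 1 := by
        have hC0 : 0 < C := lt_of_lt_of_le one_pos hC
        gcongr; exact norm_ee j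
    _ = 2464 * C ^ 9 := mul_one _

end Vale.Agent.P092.H789.Sp.CapP
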