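import Vale.Agent.P092.H789.Sp.CapP

/-!
Capacity for lines: two isometries of the standard symplectic form in dimension four, of
comparable size, which contract the same Lagrangian plane at the full rate, differ by a bounded
element.
-/

namespace Vale.Agent.P092.H789.Sp.CapL

open Matrix Vale.Agent.P092.H789.Sp.CapP

variable {k : Type*} [NormedField k]

/-- a pivot basis of a plane: coordinates `p, q` of the two vectors are `(1,0), (0,1)`, all other
coordinates are at most one. -/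
theorem exists_piv (v w : Fin 4 → k) (hne : ∃ p q, v p * w q - v q * w p ≠ 0) :
    ∃ (p q : Fin 4) (a b c d : k), p ≠ q ∧ (a • v + b • w) p = 1 ∧ (a • v + b • w) q = 0 ∧
      (c • v + d • w) p = 0 ∧ (c • v + d • w) q = 1 ∧ ‖a • v + b • w‖ ≤ 1 ∧
      ‖c • v + d • w‖ ≤ 1 ∧ a * d - b * c ≠ 0 := by
  classical
  obtain ⟨⟨p, q⟩, -, hmax⟩ := Finset.exists_max_image (Finset.univ : Finset (Fin 4 × Fin 4))
    (fun t => ‖v t.1 * w t.2 - v t.2 * w t.1‖) ⟨(0, 0), Finset.mem_univ _⟩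
  obtain ⟨p0, q0, h0⟩ := hne
  set D : k := v p * w q - v q * w p with hD
  have hD0 : D ≠ 0 := by
    intro h
    have := hmax (p0, q0) (Finset.mem_univ _)
    simp only at this
    rw [h, norm_zero] at this
    exact h0 (norm_le_zero_iff.1 this)
  have hDn : 0 < ‖D‖ := norm_pos_iff.2 hD0
  have hm : ∀ i j, ‖(v i * w j - v j * w i) / D‖ ≤ 1 := fun i j => by
    rw [norm_div, div_le_one hDn]
    exact hmax (i, j) (Finset.mem_univ _)
  refine ⟨p, q, w q / D, - (v q / D), - (w p / D), v p / D, ?_, ?_, ?_, ?_, ?_, ?_, ?_, ?_⟩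
  · rintro rfl
    exact hD0 (by rw [hD]; ring)
  · simp only [Pi.add_apply, Pi.smul_apply, smul_eq_mul]
    field_simp
    rw [hD]; ring
  · simp only [Pi.add_apply, Pi.smul_apply, smul_eq_mul]
    field_simp
    ring
  · simp only [Pi.add_apply, Pi.smul_apply, smul_eq_mul]
    field_simp
    ring
  · simp only [Pi.add_apply, Pi.smul_apply, smul_eq_mul]
    field_simp
    rw [hD]; ring
  · refine (pi_norm_le_iff_of_nonneg zero_le_one).2 fun i => ?_
    have e : (((w q / D) • v + (-(v q / D)) • w) : Fin 4 → k) i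
        = (v i * w q - v q * w i) / D := by
      simp only [Pi.add_apply, Pi.smul_apply, smul_eq_mul]
      field_simp
      ring
    rw [e]; exact hm i q
  · refine (pi_norm_le_iff_of_nonneg zero_le_one).2 fun i => ?_
    have e : (((-(w p / D)) • v + (v p / D) • w) : Fin 4 → k) i
        = (v p * w i - v i * w p) / D := by
      simp only [Pi.add_apply, Pi.smul_apply, smul_eq_mul]
      field_simp
      ring
    rw [e]; exact hm p i
  · have e : w q / D * (v p / D) - -(v q / D) * -(w p / D) = 1 / D := by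
      field_simp
      rw [hD]; ring
    rw [e]
    exact one_div_ne_zero hD0

theorem norm_om_ee_right (j : Fin 4) (z : Fin 4 → k) : ‖om z (ee j)‖ = ‖z j.rev‖ := by
  rw [om_swap, norm_neg, norm_om_ee]

/-- in dimension four, a vector orthogonal to both vectors of a pivot basis of a Lagrangian
plane lies in the plane. -/
theorem mem_of_perp {x y z : Fin 4 → k} {p q : Fin 4} (hpq : p ≠ q) (xp : x p = 1) (xq : x q = 0)
    (yp : y p = 0) (yq : y q = 1) (hxy : om x y = 0) (hx : om x z = 0) (hy : om y z = 0) :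
    z = z p • x + z q • y := by
  set u : Fin 4 → k := z - (z p • x + z q • y) with hu
  have up : u p = 0 := by simp [hu, xp, yp]
  have uq : u q = 0 := by simp [hu, xq, yq]
  have hyx : om y x = 0 := by rw [om_swap, hxy, neg_zero]
  have h1 : om x u = 0 := by
    rw [hu, om_sub_right, om_add_right, om_smul_right, om_smul_right, om_self, hxy, hx]; ring
  have h2 : om y u = 0 := by
    rw [hu, om_sub_right, om_add_right, om_smul_right, om_smul_right, om_self, hyx, hy]; ring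
  suffices u = 0 by
    have := sub_eq_zero.1 this
    exact this
  clear_value u
  simp only [om] at h1 h2 hxy
  ext i
  fin_cases p <;> fin_cases q <;> simp only [Fin.zero_eta, Fin.mk_one, Fin.reduceFinMk, ne_eq,
    not_true_eq_false, Fin.isValue] at * <;>
    first
    | exact absurd rfl hpq
    | (simp only [xp, xq, yp, yq, up, uq] at h1 h2 hxy
       fin_cases i <;> simp only [Fin.zero_eta, Fin.mk_one, Fin.reduceFinMk, Pi.zero_apply,
         Fin.isValue, up, uq] <;> grind)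

/-- **capacity of lines.** -/
theorem cap_ln_vec {C M N : ℝ} {g h : Matrix (Fin 4) (Fin 4) k} (hC : 1 ≤ C) (hM : 0 < M)
    (hN : 0 < N) (sg : gᵀ * JJ * g = JJ) (ug : ∀ i j, ‖g i j‖ ≤ M) (uh : ∀ i j, ‖h i j‖ ≤ N)
    (hMN : M ≤ C * N) (hNM : N ≤ C * M) {v w : Fin 4 → k}
    (hne : ∃ p q, v p * w q - v q * w p ≠ 0) (iso : om v w = 0)
    (cg : ∀ a b : k, M * ‖g *ᵥ (a • v + b • w)‖ ≤ C * ‖a • v + b • w‖)
    (ch : ∀ a b : k, N * ‖h *ᵥ (a • v + b • w)‖ ≤ C * ‖a • v + b • w‖)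
    (z : Fin 4 → k) : ‖h *ᵥ z‖ ≤ 44 * C ^ 3 * ‖g *ᵥ z‖ := by
  have hC0 : 0 < C := lt_of_lt_of_le one_pos hC
  obtain ⟨p, q, a, b, c, d, hpq, xp, xq, yp, yq, nx, ny, -⟩ := exists_piv v w hne
  set x : Fin 4 → k := a • v + b • w with hx
  set y : Fin 4 → k := c • v + d • w with hy
  have hxy : om x y = 0 := by
    rw [hx, hy]
    simp only [om_add_left, om_add_right, om_smul_left, om_smul_right, om_self, iso,
      om_swap v w]
    ring
  set n := ‖g *ᵥ z‖ with hn
  have hn0 : 0 ≤ n := norm_nonneg _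
  have gx : M * ‖g *ᵥ x‖ ≤ C := (cg a b).trans (by nlinarith)
  have gy : M * ‖g *ᵥ y‖ ≤ C := (cg c d).trans (by nlinarith)
  -- coordinates of the transversal part
  set s : k := om x (ee p.rev) with hs
  set t : k := om y (ee q.rev) with ht
  have sn : ‖s‖ = 1 := by rw [hs, norm_om_ee_right, Fin.rev_rev, xp, norm_one]
  have tn : ‖t‖ = 1 := by rw [ht, norm_om_ee_right, Fin.rev_rev, yq, norm_one]
  have s0 : s ≠ 0 := norm_pos_iff.1 (sn ▸ one_pos)
  have t0 : t ≠ 0 := norm_pos_iff.1 (tn ▸ one_pos)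
  have o1 : om x (ee q.rev) = 0 := by
    rw [← norm_eq_zero, norm_om_ee_right, Fin.rev_rev, xq, norm_zero]
  have o2 : om y (ee p.rev) = 0 := by
    rw [← norm_eq_zero, norm_om_ee_right, Fin.rev_rev, yp, norm_zero]
  set α : k := om x z / s with hα
  set β : k := om y z / t with hβ
  set u : Fin 4 → k := z - (α • ee p.rev + β • ee q.rev) with hu
  have p1 : om x u = 0 := by
    rw [hu, om_sub_right, om_add_right, om_smul_right, om_smul_right, o1, ← hs, hα]
    field_simp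
    ring
  have p2 : om y u = 0 := by
    rw [hu, om_sub_right, om_add_right, om_smul_right, om_smul_right, o2, ← ht, hβ]
    field_simp
    ring
  have mem := mem_of_perp hpq xp xq yp yq hxy p1 p2
  have mem2 : u = (u p * a + u q * c) • v + (u p * b + u q * d) • w := by
    conv_lhs => rw [mem]
    rw [hx, hy]
    ext i
    simp only [Pi.add_apply, Pi.smul_apply, smul_eq_mul]
    ring
  have αn : M * ‖α‖ ≤ 4 * C * n := by
    rw [hα, norm_div, sn, div_one, ← om_mul sg]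
    calc M * ‖om (g *ᵥ x) (g *ᵥ z)‖ ≤ M * (4 * ‖g *ᵥ x‖ * n) := by
          gcongr; exact om_le _ _
      _ = 4 * (M * ‖g *ᵥ x‖) * n := by ring
      _ ≤ 4 * C * n := by gcongr
  have βn : M * ‖β‖ ≤ 4 * C * n := by
    rw [hβ, norm_div, tn, div_one, ← om_mul sg]
    calc M * ‖om (g *ᵥ y) (g *ᵥ z)‖ ≤ M * (4 * ‖g *ᵥ y‖ * n) := by
          gcongr; exact om_le _ _
      _ = 4 * (M * ‖g *ᵥ y‖) * n := by ring
      _ ≤ 4 * C * n := by gcongr
  have ge : ∀ j, ‖g *ᵥ ee j‖ ≤ M := fun j => by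
    refine (pi_norm_le_iff_of_nonneg hM.le).2 fun l => ?_
    rw [mulVec_ee]; exact ug _ _
  have he : ∀ j, ‖h *ᵥ ee j‖ ≤ N := fun j => by
    refine (pi_norm_le_iff_of_nonneg hN.le).2 fun l => ?_
    rw [mulVec_ee]; exact uh _ _
  have r1 : ‖g *ᵥ u‖ ≤ 9 * C * n := by
    have e : g *ᵥ u = g *ᵥ z - (α • (g *ᵥ ee p.rev) + β • (g *ᵥ ee q.rev)) := by
      rw [hu, Matrix.mulVec_sub, Matrix.mulVec_add, Matrix.mulVec_smul, Matrix.mulVec_smul]
    rw [e]
    have c1 : ‖α • (g *ᵥ ee p.rev)‖ ≤ 4 * C * n := by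
      rw [norm_smul, mul_comm]
      exact (mul_le_mul_of_nonneg_right (ge _) (norm_nonneg _)).trans αn
    have c2 : ‖β • (g *ᵥ ee q.rev)‖ ≤ 4 * C * n := by
      rw [norm_smul, mul_comm]
      exact (mul_le_mul_of_nonneg_right (ge _) (norm_nonneg _)).trans βn
    have c4 : n ≤ C * n := by nlinarith
    calc ‖g *ᵥ z - (α • (g *ᵥ ee p.rev) + β • (g *ᵥ ee q.rev))‖
        ≤ n + ‖α • (g *ᵥ ee p.rev) + β • (g *ᵥ ee q.rev)‖ := norm_sub_le _ _
      _ ≤ n + (‖α • (g *ᵥ ee p.rev)‖ + ‖β • (g *ᵥ ee q.rev)‖) := by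
          gcongr; exact norm_add_le _ _
      _ ≤ 9 * C * n := by linarith
  have r2 : ‖u‖ ≤ 36 * C * M * n := by
    calc ‖u‖ ≤ 4 * M * ‖g *ᵥ u‖ := inv_le hM.le sg ug u
      _ ≤ 4 * M * (9 * C * n) := by gcongr
      _ = 36 * C * M * n := by ring
  have r3 : ‖h *ᵥ u‖ ≤ 36 * C ^ 3 * n := by
    have c1 : N * ‖h *ᵥ u‖ ≤ C * ‖u‖ := by
      have := ch (u p * a + u q * c) (u p * b + u q * d)
      rwa [← mem2] at this
    have c2 : N * ‖h *ᵥ u‖ ≤ N * (36 * C ^ 3 * n) := by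
      calc N * ‖h *ᵥ u‖ ≤ C * ‖u‖ := c1
        _ ≤ C * (36 * C * M * n) := by gcongr
        _ ≤ C * (36 * C * (C * N) * n) := by gcongr
        _ = N * (36 * C ^ 3 * n) := by ring
    exact le_of_mul_le_mul_left c2 hN
  have r4 : ‖α • (h *ᵥ ee p.rev)‖ ≤ 4 * C ^ 3 * n := by
    rw [norm_smul]
    calc ‖α‖ * ‖h *ᵥ ee p.rev‖ ≤ ‖α‖ * (C * M) := by gcongr; exact (he _).trans hNM
      _ = C * (M * ‖α‖) := by ring
      _ ≤ C * (4 * C * n) := by gcongr
      _ = 4 * C ^ 2 * n := by ring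
      _ ≤ 4 * C ^ 3 * n := by
          have : C ^ 2 ≤ C ^ 3 := pow_le_pow_right₀ hC (by norm_num)
          gcongr
  have r5 : ‖β • (h *ᵥ ee q.rev)‖ ≤ 4 * C ^ 3 * n := by
    rw [norm_smul]
    calc ‖β‖ * ‖h *ᵥ ee q.rev‖ ≤ ‖β‖ * (C * M) := by gcongr; exact (he _).trans hNM
      _ = C * (M * ‖β‖) := by ring
      _ ≤ C * (4 * C * n) := by gcongr
      _ = 4 * C ^ 2 * n := by ring
      _ ≤ 4 * C ^ 3 * n := by
          have : C ^ 2 ≤ C ^ 3 := pow_le_pow_right₀ hC (by norm_num)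
          gcongr
  have e : h *ᵥ z = α • (h *ᵥ ee p.rev) + β • (h *ᵥ ee q.rev) + h *ᵥ u := by
    have hze : z = α • ee p.rev + β • ee q.rev + u := by rw [hu]; abel
    conv_lhs => rw [hze]
    rw [Matrix.mulVec_add, Matrix.mulVec_add, Matrix.mulVec_smul, Matrix.mulVec_smul]
  rw [e]
  calc ‖α • (h *ᵥ ee p.rev) + β • (h *ᵥ ee q.rev) + h *ᵥ u‖
      ≤ ‖α • (h *ᵥ ee p.rev) + β • (h *ᵥ ee q.rev)‖ + ‖h *ᵥ u‖ := norm_add_le _ _
    _ ≤ ‖α • (h *ᵥ ee p.rev)‖ + ‖β • (h *ᵥ ee q.rev)‖ + ‖h *ᵥ u‖ := by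
        gcongr; exact norm_add_le _ _
    _ ≤ 44 * C ^ 3 * n := by linarith

/-- capacity of lines, the line given as a subspace. -/
theorem cap_ln {C M N : ℝ} {g h : Matrix (Fin 4) (Fin 4) k} (hC : 1 ≤ C) (hM : 0 < M)
    (hN : 0 < N) (sg : gᵀ * JJ * g = JJ) (ug : ∀ i j, ‖g i j‖ ≤ M) (uh : ∀ i j, ‖h i j‖ ≤ N)
    (hMN : M ≤ C * N) (hNM : N ≤ C * M) {V : Submodule k (Fin 4 → k)}
    (hV : Module.finrank k V = 2) (iso : ∀ x ∈ V, ∀ y ∈ V, om x y = 0)
    (cg : ∀ x ∈ V, M * ‖g *ᵥ x‖ ≤ C * ‖x‖) (ch : ∀ x ∈ V, N * ‖h *ᵥ x‖ ≤ C * ‖x‖)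
    (z : Fin 4 → k) : ‖h *ᵥ z‖ ≤ 44 * C ^ 3 * ‖g *ᵥ z‖ := by
  let B := Module.finBasisOfFinrankEq k V hV
  set v : Fin 4 → k := (B 0 : Fin 4 → k) with hv
  set w : Fin 4 → k := (B 1 : Fin 4 → k) with hw
  have mv : v ∈ V := (B 0).2
  have mw : w ∈ V := (B 1).2
  have mem : ∀ a b : k, a • v + b • w ∈ V := fun a b =>
    V.add_mem (V.smul_mem _ mv) (V.smul_mem _ mw)
  have li : LinearIndependent k ![v, w] := by
    have h1 := B.linearIndependent.map' V.subtype V.ker_subtype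
    have h2 : (V.subtype ∘ B : Fin 2 → Fin 4 → k) = ![v, w] := by
      ext i; fin_cases i <;> rfl
    rwa [h2] at h1
  have hne : ∃ p q, v p * w q - v q * w p ≠ 0 := by
    by_contra hcon
    push Not at hcon
    rw [LinearIndependent.pair_iff] at li
    by_cases hv0 : v = 0
    · have := li 1 0 (by rw [hv0]; simp)
      exact one_ne_zero this.1
    · obtain ⟨p, hp⟩ := Function.ne_iff.1 hv0
      have h3 := li (- w p) (v p) (by
        ext q
        have := hcon p q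
        simp only [Pi.add_apply, Pi.smul_apply, smul_eq_mul, Pi.zero_apply]
        linear_combination this)
      exact hp h3.2
  exact cap_ln_vec hC hM hN sg ug uh hMN hNM hne (iso v mv w mw) (fun a b => cg _ (mem a b))
    (fun a b => ch _ (mem a b)) z

end Vale.Agent.P092.H789.Sp.CapL
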